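import Vale.Agent.Lib.P362.P.Main
import Vale.Agent.Lib.P362.Hyb.Main
import Vale.Agent.Lib.P362.Prod.Main
import Vale.Agent.Lib.P362.Zero.Main
import Vale.Agent.Lib.P362.Q.Main
import Vale.Agent.Lib.P362.A.Main
import Vale.Agent.Lib.P362.F.Tab
import Vale.Agent.Lib.P362.F.Trees
import Vale.Agent.Lib.P362.F.Decode
import Vale.Agent.Lib.P362.F.Quant
import Vale.Agent.Lib.P362.F.Class

/-! P362: everything except the law. -/

namespace P362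

theorem fQuant_all : FQuant :=
  fQuant partQTree partQBind partQForr (partQAlg partQTree partQBind partQAmp) fTrees fDecode
    fTabSound

theorem fClass_all : FClass := fClass partHyb partProd partZero fTabComplete

theorem main_of_law (hLaw : PartLaw) :
    alphaTot = 4 ∧
    (∃ C : ℝ, ∀ n : ℕ, 1 ≤ n → ∀ f : (Fin n → Bool) → Bool,
      (RQ f : ℝ) ≤ C * (1 + (QQ f : ℝ)) ^ (4 : ℕ)) ∧
    (∀ α : ℝ, 0 ≤ α → α < 4 → ∀ C : ℝ, ∃ n : ℕ, 1 ≤ n ∧ ∃ f : (Fin n → Bool) → Bool,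
      C * (1 + (QQ f : ℝ)) ^ α < RQ f) ∧
    (∀ n : ℕ, 1 ≤ n → ∀ f : (Fin n → Bool) → Bool,
      RandComputes (RQ f) f ∧ QuantComputes (QQ f) f) :=
  main hLaw fQuant_all fClass_all partQTree

/-- the separation in the form `R(f) ≥ Q(f)^(4-o(1))` with `Q(f)` unbounded -/
theorem sep_of_law (hLaw : PartLaw) (α : ℝ) (hα : 0 ≤ α) (hα4 : α < 4) (K : ℕ) :
    ∃ n : ℕ, 1 ≤ n ∧ ∃ f : (Fin n → Bool) → Bool, K ≤ QQ f ∧ (QQ f : ℝ) ^ α ≤ RQ f := by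
  obtain ⟨-, ⟨C, hC⟩, hsep, -⟩ := main_of_law hLaw
  -- the constant exceeds every `R(f)` with `Q(f) < K`
  obtain ⟨n, hn, f, hf⟩ := hsep α hα hα4 (max 1 (|C| * (1 + (K : ℝ)) ^ (4 : ℕ)))
  refine ⟨n, hn, f, ?_, ?_⟩
  · by_contra hK
    push Not at hK
    have h1 := hC n hn f
    have h2 : (QQ f : ℝ) ≤ K := by exact_mod_cast hK.le
    have h3 : (1 + (QQ f : ℝ)) ^ (4 : ℕ) ≤ (1 + (K : ℝ)) ^ (4 : ℕ) := by gcongr
    have h4' : (RQ f : ℝ) ≤ |C| * (1 + (K : ℝ)) ^ (4 : ℕ) := by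
      calc (RQ f : ℝ) ≤ C * (1 + (QQ f : ℝ)) ^ (4 : ℕ) := h1
        _ ≤ |C| * (1 + (QQ f : ℝ)) ^ (4 : ℕ) :=
            mul_le_mul_of_nonneg_right (le_abs_self C) (by positivity)
        _ ≤ _ := mul_le_mul_of_nonneg_left h3 (abs_nonneg C)
    have h5 : (1 : ℝ) ≤ (1 + (QQ f : ℝ)) ^ α :=
      Real.one_le_rpow (by linarith [Nat.cast_nonneg (α := ℝ) (QQ f)]) hα
    have h6 : (|C| * (1 + (K : ℝ)) ^ (4 : ℕ)) ≤
        max 1 (|C| * (1 + (K : ℝ)) ^ (4 : ℕ)) * (1 + (QQ f : ℝ)) ^ α := by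
      calc (|C| * (1 + (K : ℝ)) ^ (4 : ℕ)) ≤ max 1 (|C| * (1 + (K : ℝ)) ^ (4 : ℕ)) :=
            le_max_right _ _
        _ = max 1 (|C| * (1 + (K : ℝ)) ^ (4 : ℕ)) * 1 := by rw [mul_one]
        _ ≤ _ := mul_le_mul_of_nonneg_left h5 (by positivity)
    linarith
  · have h5 : (QQ f : ℝ) ^ α ≤ (1 + (QQ f : ℝ)) ^ α :=
      Real.rpow_le_rpow (Nat.cast_nonneg _) (by linarith) hα
    have h6 : (1 + (QQ f : ℝ)) ^ α ≤
        max 1 (|C| * (1 + (K : ℝ)) ^ (4 : ℕ)) * (1 + (QQ f : ℝ)) ^ α := by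
      have : (0 : ℝ) ≤ (1 + (QQ f : ℝ)) ^ α := by positivity
      nlinarith [le_max_left 1 (|C| * (1 + (K : ℝ)) ^ (4 : ℕ))]
    linarith

end P362
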