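import Vale.Agent.Lib.P362.Defs

/-! P362: the exponent `alpha_tot` of the problem. -/

namespace P362

/-- the exponent `alpha_tot`: infimum of the `α ≥ 0` such that `R(f) ≤ C (1 + Q(f))^α` for some `C`
and all total Boolean functions `f` on `n ≥ 1` bits -/
noncomputable def alphaTot : ℝ :=
  sInf {α : ℝ | 0 ≤ α ∧ ∃ C : ℝ, ∀ n : ℕ, 1 ≤ n → ∀ f : (Fin n → Bool) → Bool,
    (RQ f : ℝ) ≤ C * (1 + (QQ f : ℝ)) ^ α}

end P362
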