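import Vale.Agent.Lib.P362.P.Poly
import Vale.Agent.Lib.P362.FInterface

/-! P362, part P: the number of queries of the quantum algorithm. -/

namespace P362

/-- the estimate with `N`, `L`, `M` and the number of bits as real numbers -/
theorem qest_real (C K u N L M B s1 s2 E : ℝ) (hC : 0 ≤ C) (hK : 1 ≤ K) (hu : 1 ≤ u)
    (hN : 1 ≤ N) (hE : 1 ≤ E) (hM0 : 0 ≤ M) (hB0 : 0 ≤ B)
    (hL : L ≤ 2 * E ^ 3) (hM : M ≤ 97 * u * E ^ 2) (hB : B ≤ K * u)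
    (h1 : s1 ≤ Real.sqrt N) (h2 : s2 ≤ 48 * K * u ^ 2 * (Real.sqrt N * E ^ 2))
    (hEN : E ^ 3 ≤ Real.sqrt N * E ^ 2) :
    C * (4 * u) ^ 6 * ((s1 + 1) * (3 * u * M * K + 4 * B) + (s2 + 1) * (4 * B) +
      3 * u * L * B) ≤ (C * 4096 * 1000 * K ^ 2) * u ^ 9 * (Real.sqrt N * E ^ 2) := by
  have hR : 1 ≤ Real.sqrt N := Real.one_le_sqrt.mpr hN
  generalize Real.sqrt N = R at *
  have hE2 : 1 ≤ E ^ 2 := one_le_pow₀ hE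
  have hRE : 1 ≤ R * E ^ 2 := by nlinarith
  have hu2 : 1 ≤ u ^ 2 := one_le_pow₀ hu
  have hu3 : 1 ≤ u ^ 3 := one_le_pow₀ hu
  have hK2 : 1 ≤ K ^ 2 := one_le_pow₀ hK
  have hKK : K ≤ K ^ 2 := by nlinarith
  have huu : u ≤ u ^ 3 := by nlinarith
  have huu2 : u ^ 2 ≤ u ^ 3 := by nlinarith
  have hE0 : 0 ≤ E := by linarith
  have hK0 : 0 ≤ K := by linarith
  have hu0 : 0 ≤ u := by linarith
  have hR0 : 0 ≤ R := by linarith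
  -- first product
  have p1 : (s1 + 1) * (3 * u * M * K + 4 * B) ≤ 590 * (K ^ 2 * u ^ 3 * (R * E ^ 2)) := by
    have a1 : s1 + 1 ≤ 2 * R := by linarith
    have a2 : 3 * u * M * K + 4 * B ≤ 295 * (K ^ 2 * u ^ 3 * E ^ 2) := by
      have b1 : 3 * u * M * K ≤ 3 * u * (97 * u * E ^ 2) * K := by gcongr
      have b2 : 3 * u * (97 * u * E ^ 2) * K = 291 * (K * u ^ 2 * E ^ 2) := by ring
      have b3 : K * u ^ 2 * E ^ 2 ≤ K ^ 2 * u ^ 3 * E ^ 2 := by gcongr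
      have b4 : K * u ≤ K ^ 2 * u ^ 3 * E ^ 2 := by
        calc K * u = K * u * 1 := by ring
          _ ≤ K ^ 2 * u ^ 3 * E ^ 2 := by gcongr
      linarith
    calc (s1 + 1) * (3 * u * M * K + 4 * B) ≤ (2 * R) * (295 * (K ^ 2 * u ^ 3 * E ^ 2)) := by
          gcongr
      _ = 590 * (K ^ 2 * u ^ 3 * (R * E ^ 2)) := by ring
  have p2 : (s2 + 1) * (4 * B) ≤ 196 * (K ^ 2 * u ^ 3 * (R * E ^ 2)) := by
    have a1 : s2 + 1 ≤ 49 * (K * u ^ 2 * (R * E ^ 2)) := by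
      have b1 : (1 : ℝ) ≤ K * u ^ 2 * (R * E ^ 2) := by
        calc (1 : ℝ) = 1 * 1 * 1 := by ring
          _ ≤ K * u ^ 2 * (R * E ^ 2) := by gcongr
      linarith
    calc (s2 + 1) * (4 * B) ≤ (49 * (K * u ^ 2 * (R * E ^ 2))) * (4 * (K * u)) := by gcongr
      _ = 196 * (K ^ 2 * u ^ 3 * (R * E ^ 2)) := by ring
  have p3 : 3 * u * L * B ≤ 6 * (K ^ 2 * u ^ 3 * (R * E ^ 2)) := by
    calc 3 * u * L * B ≤ 3 * u * (2 * E ^ 3) * (K * u) := by gcongr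
      _ = 6 * (K * u ^ 2 * E ^ 3) := by ring
      _ ≤ 6 * (K ^ 2 * u ^ 3 * (R * E ^ 2)) := by gcongr
  have p4 : 0 ≤ K ^ 2 * u ^ 3 * (R * E ^ 2) := by positivity
  calc C * (4 * u) ^ 6 * ((s1 + 1) * (3 * u * M * K + 4 * B) + (s2 + 1) * (4 * B) +
      3 * u * L * B) ≤ C * (4 * u) ^ 6 * (1000 * (K ^ 2 * u ^ 3 * (R * E ^ 2))) := by
        apply mul_le_mul_of_nonneg_left _ (by positivity)
        linarith
    _ = _ := by ring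

theorem qest (C m : ℕ) (ε : ℝ) (he : 0 < ε) (he' : ε < 1 / 100) :
    ∃ l0 : ℕ, ∀ l ≥ l0, ∀ L M : ℕ,
      (L : ℝ) ≤ 2 * ((2 : ℝ) ^ l) ^ (3 * ε) →
      (M : ℝ) ≤ 97 * ((l : ℝ) + 1) * ((2 : ℝ) ^ l) ^ (2 * ε) →
      ((C * (l + 3 * l + 2) ^ 6 * ((Nat.sqrt (2 ^ l) + 1) * (3 * l * M * (m + 1) + 4 * Bt m l) +
        (Nat.sqrt ((m + 2) * (l + 2) * (3 * l) * L * 2 ^ l * 4) + 1) * (4 * Bt m l) +
          3 * l * L * Bt m l) : ℕ) : ℝ) ≤ ((2 : ℝ) ^ l) ^ (1 / 2 + 4 * ε) := by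
  have he2 : 0 < 2 * ε := by positivity
  obtain ⟨l0, hl0⟩ := poly_le ((C : ℝ) * 4096 * 1000 * ((m : ℝ) + 2) ^ 2) 9 he2
  refine ⟨l0, fun l hl L M hL hM => ?_⟩
  have hp := hl0 l hl
  have hN1 : (1 : ℝ) ≤ (2 : ℝ) ^ l := one_le_pow₀ (by norm_num)
  have hN0 : (0 : ℝ) < (2 : ℝ) ^ l := by linarith
  have hl' : (0 : ℝ) ≤ l := Nat.cast_nonneg l
  have hm' : (0 : ℝ) ≤ m := Nat.cast_nonneg m
  have hE1 : 1 ≤ ((2 : ℝ) ^ l) ^ ε := Real.one_le_rpow hN1 he.le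
  have eE2 : ((2 : ℝ) ^ l) ^ (2 * ε) = (((2 : ℝ) ^ l) ^ ε) ^ 2 := by
    rw [mul_comm, Real.rpow_mul hN0.le]
    exact_mod_cast Real.rpow_natCast _ 2
  have eE3 : ((2 : ℝ) ^ l) ^ (3 * ε) = (((2 : ℝ) ^ l) ^ ε) ^ 3 := by
    rw [mul_comm, Real.rpow_mul hN0.le]
    exact_mod_cast Real.rpow_natCast _ 3
  have eE4 : ((2 : ℝ) ^ l) ^ (1 / 2 + 4 * ε) =
      (((2 : ℝ) ^ l) ^ (2 * ε)) * (Real.sqrt ((2 : ℝ) ^ l) * (((2 : ℝ) ^ l) ^ ε) ^ 2) := by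
    rw [← eE2, Real.sqrt_eq_rpow, ← Real.rpow_add hN0, ← Real.rpow_add hN0]
    congr 1
    ring
  have hEN : (((2 : ℝ) ^ l) ^ ε) ^ 3 ≤ Real.sqrt ((2 : ℝ) ^ l) * (((2 : ℝ) ^ l) ^ ε) ^ 2 := by
    have : ((2 : ℝ) ^ l) ^ ε ≤ Real.sqrt ((2 : ℝ) ^ l) := by
      rw [Real.sqrt_eq_rpow]
      exact Real.rpow_le_rpow_of_exponent_le hN1 (by linarith)
    calc (((2 : ℝ) ^ l) ^ ε) ^ 3 = ((2 : ℝ) ^ l) ^ ε * (((2 : ℝ) ^ l) ^ ε) ^ 2 := by ring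
      _ ≤ _ := by gcongr
  have hs : ∀ n : ℕ, (Nat.sqrt n : ℝ) ≤ Real.sqrt n := fun n => Real.nat_sqrt_le_real_sqrt
  have h1 : (Nat.sqrt (2 ^ l) : ℝ) ≤ Real.sqrt ((2 : ℝ) ^ l) := by
    have := hs (2 ^ l)
    push_cast at this
    exact this
  rw [eE3] at hL
  rw [eE2] at hM
  rw [eE4]
  have hBt : ((Bt m l : ℕ) : ℝ) ≤ ((m : ℝ) + 2) * ((l : ℝ) + 1) := by
    unfold Bt
    push_cast
    nlinarith
  have h2 : (Nat.sqrt ((m + 2) * (l + 2) * (3 * l) * L * 2 ^ l * 4) : ℝ) ≤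
      48 * ((m : ℝ) + 2) * ((l : ℝ) + 1) ^ 2 *
        (Real.sqrt ((2 : ℝ) ^ l) * (((2 : ℝ) ^ l) ^ ε) ^ 2) := by
    have a1 := hs ((m + 2) * (l + 2) * (3 * l) * L * 2 ^ l * 4)
    refine a1.trans ?_
    apply Real.sqrt_le_iff.mpr
    refine ⟨by positivity, ?_⟩
    have a2 : (Real.sqrt ((2 : ℝ) ^ l)) ^ 2 = (2 : ℝ) ^ l := Real.sq_sqrt hN0.le
    push_cast
    have a3 : (48 * ((m : ℝ) + 2) * ((l : ℝ) + 1) ^ 2 *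
        (Real.sqrt ((2 : ℝ) ^ l) * (((2 : ℝ) ^ l) ^ ε) ^ 2)) ^ 2 =
        2304 * ((m : ℝ) + 2) ^ 2 * ((l : ℝ) + 1) ^ 4 * ((2 : ℝ) ^ l) *
          (((2 : ℝ) ^ l) ^ ε) ^ 4 := by
      have a4 : ∀ R E : ℝ, (48 * ((m : ℝ) + 2) * ((l : ℝ) + 1) ^ 2 * (R * E ^ 2)) ^ 2 =
          2304 * ((m : ℝ) + 2) ^ 2 * ((l : ℝ) + 1) ^ 4 * R ^ 2 * E ^ 4 := fun R E => by ring
      rw [a4, a2]
    rw [a3]
    generalize (2 : ℝ) ^ l = N at *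
    generalize N ^ ε = E at *
    have hE0 : 0 ≤ E := by linarith
    calc ((m : ℝ) + 2) * ((l : ℝ) + 2) * (3 * l) * L * N * 4
        ≤ ((m : ℝ) + 2) * (2 * ((l : ℝ) + 1)) * (3 * ((l : ℝ) + 1)) * (2 * E ^ 3) * N * 4 := by
          gcongr
          · linarith
          · linarith
      _ = 48 * (((m : ℝ) + 2) * ((l : ℝ) + 1) ^ 2 * N * E ^ 3) := by ring
      _ ≤ 2304 * (((m : ℝ) + 2) ^ 2 * ((l : ℝ) + 1) ^ 4 * N * E ^ 4) := by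
          have b1 : (m : ℝ) + 2 ≤ ((m : ℝ) + 2) ^ 2 := by nlinarith
          have b2 : ((l : ℝ) + 1) ^ 2 ≤ ((l : ℝ) + 1) ^ 4 :=
            pow_le_pow_right₀ (by linarith) (by norm_num)
          have b3 : E ^ 3 ≤ E ^ 4 := pow_le_pow_right₀ hE1 (by norm_num)
          have b4 : ((m : ℝ) + 2) * ((l : ℝ) + 1) ^ 2 * N * E ^ 3 ≤
              ((m : ℝ) + 2) ^ 2 * ((l : ℝ) + 1) ^ 4 * N * E ^ 4 := by gcongr
          have b5 : 0 ≤ ((m : ℝ) + 2) ^ 2 * ((l : ℝ) + 1) ^ 4 * N * E ^ 4 := by positivity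
          linarith
      _ = _ := by ring
  have hmain := qest_real (C : ℝ) ((m : ℝ) + 2) ((l : ℝ) + 1) ((2 : ℝ) ^ l) L M (Bt m l)
    (Nat.sqrt (2 ^ l)) (Nat.sqrt ((m + 2) * (l + 2) * (3 * l) * L * 2 ^ l * 4))
    (((2 : ℝ) ^ l) ^ ε) (by positivity) (by linarith) (by linarith) hN1 hE1
    (by positivity) (by positivity) hL hM hBt h1 h2 hEN
  have hs10 : (0 : ℝ) ≤ (Nat.sqrt (2 ^ l) : ℝ) := Nat.cast_nonneg _
  have hs20 : (0 : ℝ) ≤ (Nat.sqrt ((m + 2) * (l + 2) * (3 * l) * L * 2 ^ l * 4) : ℝ) :=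
    Nat.cast_nonneg _
  refine le_trans ?_ (hmain.trans ?_)
  · push_cast
    generalize (Nat.sqrt ((m + 2) * (l + 2) * (3 * l) * L * 2 ^ l * 4) : ℝ) = s2 at *
    generalize (Nat.sqrt (2 ^ l) : ℝ) = s1 at *
    have c1 : (l : ℝ) + 3 * l + 2 ≤ 4 * ((l : ℝ) + 1) := by linarith
    have c2 : (l : ℝ) ≤ (l : ℝ) + 1 := by linarith
    have c3 : (m : ℝ) + 1 ≤ (m : ℝ) + 2 := by linarith
    have c4 : (0 : ℝ) ≤ s1 := hs10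
    have c5 : (0 : ℝ) ≤ s2 := hs20
    gcongr
  · apply mul_le_mul_of_nonneg_right hp (by positivity)

end P362
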