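import Vale.Agent.Lib.P362.P.CEst
import Vale.Agent.Lib.P362.P.QEst

/-! P362, part P: `PartLower` from the statements about `F`. -/

namespace P362

/-- every function has a decision tree -/
def PartTriv : Prop :=
  ∀ (V : Type) [Fintype V] [DecidableEq V] (f : (V → Bool) → Bool), ∃ T, RandComputes T f

theorem partLower (hLaw : PartLaw) (hQ : FQuant) (hC : FClass) (hR : Reindex)
    (hT : PartTriv) : PartLower := by
  intro m hm ε he he'
  obtain ⟨C, hC'⟩ := hQ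
  obtain ⟨l1, h1⟩ := hLaw m hm ε he he'
  obtain ⟨l2, h2⟩ := cest m ε he
  obtain ⟨l3, h3⟩ := qest C m ε he he'
  obtain ⟨l4, h4⟩ := poly_le 4 0 (s := 2 * ε) (by positivity)
  refine ⟨max (max l1 l2) (max l3 (max l4 1)), fun l hl => ?_⟩
  have hl1 : l1 ≤ l := le_trans (le_trans (le_max_left _ _) (le_max_left _ _)) hl
  have hl2 : l2 ≤ l := le_trans (le_trans (le_max_right _ _) (le_max_left _ _)) hl
  have hl3 : l3 ≤ l := le_trans (le_trans (le_max_left _ _) (le_max_right _ _)) hl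
  have hl4 : l4 ≤ l := le_trans (le_trans (le_trans (le_max_left _ _) (le_max_right _ _))
    (le_max_right _ _)) hl
  have hl5 : 1 ≤ l := le_trans (le_trans (le_trans (le_max_right _ _) (le_max_right _ _))
    (le_max_right _ _)) hl
  obtain ⟨law, hlaw, hmean, hind⟩ := h1 l hl1
  have hN4 := h4 l hl4
  rw [pow_zero, mul_one] at hN4
  have hN1 : (1 : ℝ) ≤ (2 : ℝ) ^ l := one_le_pow₀ (by norm_num)
  have hN0 : (0 : ℝ) < (2 : ℝ) ^ l := by linarith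
  set N : ℝ := (2 : ℝ) ^ l with hNdef
  -- the parameters
  set L : ℕ := ⌈N ^ (3 * ε)⌉₊ with hLdef
  set κ : ℝ := 1 - 1 / ((m : ℝ) + 1) - 10 * ε with hκ
  set q : ℕ := ⌊N ^ κ⌋₊ with hqdef
  set M : ℕ := ⌈96 * (l : ℝ) * N ^ (2 * ε)⌉₊ with hMdef
  set S : ℝ := (Real.sqrt (2 ^ l)) ^ (m + 2) with hSdef
  have hS1 : 1 ≤ S := one_le_pow₀ (Real.one_le_sqrt.mpr hN1)
  set θ : ℤ := ⌊(L : ℝ) * S * (N ^ (-ε) / 2)⌋ with hθdef
  have hL1 : N ^ (3 * ε) ≤ (L : ℝ) := Nat.le_ceil _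
  have hN3 : 1 ≤ N ^ (3 * ε) := Real.one_le_rpow hN1 (by positivity)
  have hL2 : (L : ℝ) ≤ 2 * N ^ (3 * ε) := by
    have := Nat.ceil_lt_add_one (a := N ^ (3 * ε)) (by positivity)
    linarith
  have hLpos : (1 : ℝ) ≤ L := by linarith
  have hLpos' : 1 ≤ L := by exact_mod_cast hLpos
  have hq1 : (q : ℝ) ≤ N ^ κ := Nat.floor_le (by positivity)
  have hq2 : N ^ κ ≤ (q : ℝ) + 1 := (Nat.lt_floor_add_one _).le
  have hM1 : 96 * (l : ℝ) * N ^ (2 * ε) ≤ (M : ℝ) := Nat.le_ceil _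
  have hN2 : 1 ≤ N ^ (2 * ε) := Real.one_le_rpow hN1 (by positivity)
  have hM2 : (M : ℝ) ≤ 97 * ((l : ℝ) + 1) * N ^ (2 * ε) := by
    have := Nat.ceil_lt_add_one (a := 96 * (l : ℝ) * N ^ (2 * ε)) (by positivity)
    have hl' : (0 : ℝ) ≤ l := Nat.cast_nonneg l
    nlinarith
  -- the threshold
  have hX : 2 ≤ (L : ℝ) * S * (N ^ (-ε) / 2) := by
    have e1 : N ^ (2 * ε) = N ^ (3 * ε) * N ^ (-ε) := by
      rw [← Real.rpow_add hN0]
      congr 1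
      ring
    have e2 : N ^ (3 * ε) * N ^ (-ε) ≤ (L : ℝ) * S * N ^ (-ε) := by
      apply mul_le_mul_of_nonneg_right _ (by positivity)
      nlinarith
    rw [← e1] at e2
    linarith
  have hθ1 : (θ : ℝ) ≤ (L : ℝ) * S * (N ^ (-ε) / 2) := Int.floor_le _
  have hθ2 : (L : ℝ) * S * (N ^ (-ε) / 2) < (θ : ℝ) + 1 := Int.lt_floor_add_one _
  have hθ3 : (L : ℝ) * S * (N ^ (-ε) / 4) ≤ (θ : ℝ) := by linarith
  have hθ0 : 0 < θ := by
    have : (0 : ℝ) < θ := by linarith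
    exact_mod_cast this
  have hM3 : (2 * ((3 * l : ℕ) : ℝ)) ≤ M * ((θ : ℝ) / (L * S)) ^ 2 := by
    have hLS : 0 < (L : ℝ) * S := by positivity
    have e1 : N ^ (-ε) / 4 ≤ (θ : ℝ) / (L * S) := by
      rw [le_div_iff₀ hLS]
      linarith
    have e2 : (N ^ (-ε) / 4) ^ 2 ≤ ((θ : ℝ) / (L * S)) ^ 2 :=
      pow_le_pow_left₀ (by positivity) e1 2
    have e3 : (N ^ (-ε) / 4) ^ 2 * N ^ (2 * ε) = 1 / 16 := by
      have : (N ^ (-ε)) ^ 2 * N ^ (2 * ε) = 1 := by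
        rw [← Real.rpow_natCast, ← Real.rpow_mul hN0.le, ← Real.rpow_add hN0]
        have : -ε * ((2 : ℕ) : ℝ) + 2 * ε = 0 := by push_cast; ring
        rw [this, Real.rpow_zero]
      calc (N ^ (-ε) / 4) ^ 2 * N ^ (2 * ε) = ((N ^ (-ε)) ^ 2 * N ^ (2 * ε)) / 16 := by ring
        _ = 1 / 16 := by rw [this]
    calc (2 * ((3 * l : ℕ) : ℝ)) = 96 * (l : ℝ) * (1 / 16) := by push_cast; ring
      _ = (96 * (l : ℝ) * N ^ (2 * ε)) * (N ^ (-ε) / 4) ^ 2 := by rw [← e3]; ring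
      _ ≤ M * ((θ : ℝ) / (L * S)) ^ 2 := by
          apply mul_le_mul hM1 e2 (by positivity) (by positivity)
  -- quantum
  obtain ⟨T, hT1, hT2⟩ := hC' m l (3 * l) L M θ hl5 (by omega) hLpos' hθ0 hM3
  have hQf := h3 l hl3 L M hL2 hM2
  -- reindexing
  obtain ⟨g, hg⟩ := hR (VF m l (3 * l) L) (FF m l (3 * l) L θ)
  have hn : 1 ≤ Fintype.card (VF m l (3 * l) L) := Fintype.card_pos
  refine ⟨_, g, hn, ?_, ?_⟩
  · -- classical
    obtain ⟨t0, ht0⟩ := hT (VF m l (3 * l) L) (FF m l (3 * l) L θ)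
    have hne : {t | RandComputes t g}.Nonempty := ⟨t0, ((hg t0).1).mpr ht0⟩
    have ht : RandComputes (RQ g) (FF m l (3 * l) L θ) := ((hg _).1).mp (Nat.sInf_mem hne)
    apply h2 l hl2 L q (RQ g) hL1 hL2 hq1 hq2
    have h5 := hC m l (3 * l) L q θ (N ^ (-ε)) (N ^ (-(5 * ε))) law hm (by omega) hLpos'
      (by positivity) hlaw hmean ?_ ?_ (RQ g) ht
    · exact h5
    · intro σ T' hT'
      apply hind σ T'
      calc (T'.depth : ℝ) ≤ (q : ℝ) := by exact_mod_cast hT'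
        _ ≤ _ := hq1
    · exact hθ1
  · -- quantum
    have h6 : QQ g ≤ T := Nat.sInf_le (((hg T).2).mpr hT1)
    calc (QQ g : ℝ) ≤ (T : ℝ) := by exact_mod_cast h6
      _ ≤ _ := by exact_mod_cast hT2
      _ ≤ _ := hQf

end P362
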