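import Vale.Agent.Lib.P362.P.Poly

/-! P362, part P: the number of queries of the randomized algorithms. -/

namespace P362

theorem cest (m : ℕ) (ε : ℝ) (he : 0 < ε) :
    ∃ l0 : ℕ, ∀ l ≥ l0, ∀ L q t : ℕ,
      ((2 : ℝ) ^ l) ^ (3 * ε) ≤ (L : ℝ) → (L : ℝ) ≤ 2 * ((2 : ℝ) ^ l) ^ (3 * ε) →
      (q : ℝ) ≤ ((2 : ℝ) ^ l) ^ (1 - 1 / ((m : ℝ) + 1) - 10 * ε) →
      ((2 : ℝ) ^ l) ^ (1 - 1 / ((m : ℝ) + 1) - 10 * ε) ≤ (q : ℝ) + 1 →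
      (1 : ℝ) / 3 ≤ 4 * ((3 * l : ℕ) : ℝ) / ((L : ℝ) * (((2 : ℝ) ^ l) ^ (-ε)) ^ 2) +
        (t : ℝ) / (2 ^ l * ((q : ℝ) + 1)) + (t : ℝ) / 2 ^ (3 * l) +
          3 * ((q : ℝ) / 2 ^ l + ((3 * l : ℕ) : ℝ) * L * ((2 : ℝ) ^ l) ^ (-(5 * ε))) →
      ((2 : ℝ) ^ l) ^ (2 - 1 / ((m : ℝ) + 1) - 11 * ε) ≤ (t : ℝ) := by
  obtain ⟨l0, hl0⟩ := poly_le 1200 1 he
  refine ⟨l0, fun l hl L q t hL1 hL2 hq1 hq2 h => ?_⟩
  have hE0 := hl0 l hl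
  rw [pow_one] at hE0
  have hl' : (0 : ℝ) ≤ l := Nat.cast_nonneg l
  have ht' : (0 : ℝ) ≤ t := Nat.cast_nonneg t
  have hq' : (0 : ℝ) ≤ q := Nat.cast_nonneg q
  have e3 : (2 : ℝ) ^ (3 * l) = ((2 : ℝ) ^ l) ^ 3 := by rw [← pow_mul, mul_comm]
  rw [e3] at h
  have hN1 : (1 : ℝ) ≤ (2 : ℝ) ^ l := one_le_pow₀ (by norm_num)
  generalize (2 : ℝ) ^ l = N at *
  have hN0 : 0 < N := by linarith
  have hm0 : 0 ≤ 1 / ((m : ℝ) + 1) := by positivity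
  have eE : N ^ (-ε) = (N ^ ε)⁻¹ := Real.rpow_neg hN0.le ε
  have eE3 : N ^ (3 * ε) = (N ^ ε) ^ 3 := by
    rw [mul_comm, Real.rpow_mul hN0.le]
    exact_mod_cast Real.rpow_natCast (N ^ ε) 3
  have eE5 : N ^ (-(5 * ε)) = ((N ^ ε) ^ 5)⁻¹ := by
    rw [Real.rpow_neg hN0.le, mul_comm, Real.rpow_mul hN0.le]
    congr 1
    exact_mod_cast Real.rpow_natCast (N ^ ε) 5
  have eQ : N ^ (2 - 1 / ((m : ℝ) + 1) - 11 * ε) =
      N * N ^ (1 - 1 / ((m : ℝ) + 1) - 10 * ε) / N ^ ε := by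
    have e1 : ∀ x : ℝ, N * N ^ x = N ^ (1 + x) := fun x => by
      rw [Real.rpow_add hN0, Real.rpow_one]
    rw [eq_div_iff (by positivity), ← Real.rpow_add hN0, e1]
    congr 1
    ring
  have hQ1 : N ^ (1 - 1 / ((m : ℝ) + 1) - 10 * ε) ≤ N / N ^ ε := by
    rw [le_div_iff₀ (by positivity), ← Real.rpow_add hN0]
    calc N ^ (1 - 1 / ((m : ℝ) + 1) - 10 * ε + ε) ≤ N ^ (1 : ℝ) :=
          Real.rpow_le_rpow_of_exponent_le hN1 (by linarith)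
      _ = N := Real.rpow_one N
  rw [eE, eE5] at h
  rw [eE3] at hL1 hL2
  rw [eQ]
  have hQ0 : 0 < N ^ (1 - 1 / ((m : ℝ) + 1) - 10 * ε) := by positivity
  generalize N ^ (1 - 1 / ((m : ℝ) + 1) - 10 * ε) = Q at *
  have hEpos : 0 < N ^ ε := by positivity
  generalize N ^ ε = E at *
  have hE1 : 1200 ≤ E := by nlinarith
  have hL0 : (0 : ℝ) < L := lt_of_lt_of_le (by positivity) hL1
  have hQN : Q ≤ N / 1200 := hQ1.trans (by gcongr)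
  -- the five terms
  have t1 : 4 * ((3 * l : ℕ) : ℝ) / ((L : ℝ) * (E⁻¹) ^ 2) ≤ 1 / 100 := by
    have hLE : E ≤ (L : ℝ) * (E⁻¹) ^ 2 := by
      calc E = E ^ 3 * (E⁻¹) ^ 2 := by field_simp
        _ ≤ (L : ℝ) * (E⁻¹) ^ 2 := by gcongr
    rw [div_le_iff₀ (by positivity)]
    push_cast
    nlinarith
  have t2 : (t : ℝ) / (N * ((q : ℝ) + 1)) ≤ t / (N * Q) := by gcongr
  have t3 : (t : ℝ) / N ^ 3 ≤ t / (N * Q) := by
    have : N * Q ≤ N ^ 3 := by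
      have h1 : Q ≤ N := by linarith
      have h2 : N ≤ N ^ 2 := by nlinarith
      calc N * Q ≤ N * N ^ 2 := by gcongr; linarith
        _ = N ^ 3 := by ring
    gcongr
  have t4 : (q : ℝ) / N ≤ 1 / 1200 := by
    rw [div_le_iff₀ hN0]
    linarith
  have t5 : ((3 * l : ℕ) : ℝ) * L * (E ^ 5)⁻¹ ≤ 1 / 200 := by
    have hLE : (L : ℝ) * (E ^ 5)⁻¹ ≤ 2 / E := by
      calc (L : ℝ) * (E ^ 5)⁻¹ ≤ (2 * E ^ 3) * (E ^ 5)⁻¹ := by gcongr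
        _ = 2 / E ^ 2 := by field_simp
        _ ≤ 2 / E := by
            apply div_le_div_of_nonneg_left (by norm_num) hEpos
            nlinarith
    calc ((3 * l : ℕ) : ℝ) * L * (E ^ 5)⁻¹ = ((3 * l : ℕ) : ℝ) * ((L : ℝ) * (E ^ 5)⁻¹) := by ring
      _ ≤ ((3 * l : ℕ) : ℝ) * (2 / E) := by gcongr
      _ = (6 * l) / E := by push_cast; ring
      _ ≤ 1 / 200 := by
          rw [div_le_iff₀ hEpos]
          linarith
  have t6 : (1 : ℝ) / 4 ≤ 2 * (t / (N * Q)) := by linarith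
  have hNQ : 0 < N * Q := by positivity
  have t7 : N * Q / 8 ≤ t := by
    have : t / (N * Q) * (N * Q) = t := by field_simp
    nlinarith
  refine le_trans ?_ t7
  apply div_le_div_of_nonneg_left hNQ.le (by norm_num) (by linarith)

end P362
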