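import Vale.Agent.Lib.P362.P.Alpha

/-! P362, part P: the two halves of the theorem. -/

namespace P362

/-- the upper bound `R = O(Q^4)` -/
def PartUpper : Prop :=
  ∃ C : ℕ, ∀ (V : Type) [Fintype V] [DecidableEq V] [Nonempty V] (f : (V → Bool) → Bool),
    ∃ T, RandComputes T f ∧ T ≤ C * (QQ f + 1) ^ 4

/-- the lower bound: functions with `R` about `N^(2-1/k)` and `Q` about `N^(1/2)`, `N = 2^l`,
`k = m + 1` -/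
def PartLower : Prop :=
  ∀ (m : ℕ), 1 ≤ m → ∀ ε : ℝ, 0 < ε → ε < 1 / 100 → ∃ l0 : ℕ, ∀ l ≥ l0,
    ∃ (n : ℕ) (f : (Fin n → Bool) → Bool), 1 ≤ n ∧
      ((2 : ℝ) ^ l) ^ (2 - 1 / ((m : ℝ) + 1) - 11 * ε) ≤ (RQ f : ℝ) ∧
      (QQ f : ℝ) ≤ ((2 : ℝ) ^ l) ^ (1 / 2 + 4 * ε)

end P362
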