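import Vale.Agent.Lib.P362.P.Defs

/-! P362, part P: `alphaTot = 4` from the upper and the lower bound. -/

namespace P362

/-- exponent comparison -/
theorem exponent_le {α C : ℝ} (hα : 0 ≤ α)
    (h : ∀ n : ℕ, 1 ≤ n → ∀ f : (Fin n → Bool) → Bool,
      (RQ f : ℝ) ≤ C * (1 + (QQ f : ℝ)) ^ α) (hL : PartLower) (m : ℕ) (hm : 1 ≤ m) (ε : ℝ)
    (he : 0 < ε) (he' : ε < 1 / 100) :
    2 - 1 / ((m : ℝ) + 1) - 11 * ε ≤ (1 / 2 + 4 * ε) * α := by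
  by_contra hc
  push Not at hc
  obtain ⟨l0, hl0⟩ := hL m hm ε he he'
  set β := 2 - 1 / ((m : ℝ) + 1) - 11 * ε with hβ
  set γ := (1 / 2 + 4 * ε) with hγ
  have hγ0 : 0 < γ := by rw [hγ]; positivity
  have key : ∀ l ≥ l0, ((2 : ℝ) ^ l) ^ (β - γ * α) ≤ |C| * 2 ^ α := by
    intro l hl
    obtain ⟨n, f, hn, hR, hQ⟩ := hl0 l hl
    have h1 := h n hn f
    have hN : (1 : ℝ) ≤ (2 : ℝ) ^ l := one_le_pow₀ (by norm_num)
    have hN0 : (0 : ℝ) < (2 : ℝ) ^ l := by positivity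
    have h2 : (1 : ℝ) ≤ ((2 : ℝ) ^ l) ^ γ := Real.one_le_rpow hN hγ0.le
    have h3 : (1 + (QQ f : ℝ)) ^ α ≤ (2 * ((2 : ℝ) ^ l) ^ γ) ^ α := by
      apply Real.rpow_le_rpow (by positivity) (by linarith) hα
    have h4 : (2 * ((2 : ℝ) ^ l) ^ γ) ^ α = 2 ^ α * ((2 : ℝ) ^ l) ^ (γ * α) := by
      rw [Real.mul_rpow (by norm_num) (by positivity), ← Real.rpow_mul hN0.le]
    have h5 : ((2 : ℝ) ^ l) ^ β ≤ |C| * (2 ^ α * ((2 : ℝ) ^ l) ^ (γ * α)) := by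
      calc ((2 : ℝ) ^ l) ^ β ≤ (RQ f : ℝ) := hR
        _ ≤ C * (1 + (QQ f : ℝ)) ^ α := h1
        _ ≤ |C| * (1 + (QQ f : ℝ)) ^ α := by
            apply mul_le_mul_of_nonneg_right (le_abs_self C) (by positivity)
        _ ≤ |C| * (2 ^ α * ((2 : ℝ) ^ l) ^ (γ * α)) := by
            rw [← h4]
            exact mul_le_mul_of_nonneg_left h3 (abs_nonneg C)
    rw [Real.rpow_sub hN0, div_le_iff₀ (by positivity)]
    calc ((2 : ℝ) ^ l) ^ β ≤ |C| * (2 ^ α * ((2 : ℝ) ^ l) ^ (γ * α)) := h5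
      _ = _ := by ring
  have hd : 0 < β - γ * α := by linarith
  have hdt : (1 : ℝ) < (2 : ℝ) ^ (β - γ * α) := Real.one_lt_rpow (by norm_num) hd
  obtain ⟨l1, hl1⟩ := pow_unbounded_of_one_lt (|C| * 2 ^ α) hdt
  have h6 := key (max l0 l1) (le_max_left _ _)
  have h7 : ((2 : ℝ) ^ (max l0 l1)) ^ (β - γ * α) = ((2 : ℝ) ^ (β - γ * α)) ^ (max l0 l1) := by
    rw [← Real.rpow_natCast, ← Real.rpow_mul (by norm_num), ← Real.rpow_natCast,
      ← Real.rpow_mul (by norm_num), mul_comm]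
  rw [h7] at h6
  have h8 : ((2 : ℝ) ^ (β - γ * α)) ^ l1 ≤ ((2 : ℝ) ^ (β - γ * α)) ^ (max l0 l1) :=
    pow_le_pow_right₀ hdt.le (le_max_right _ _)
  linarith

theorem four_le {α C : ℝ} (hα : 0 ≤ α)
    (h : ∀ n : ℕ, 1 ≤ n → ∀ f : (Fin n → Bool) → Bool,
      (RQ f : ℝ) ≤ C * (1 + (QQ f : ℝ)) ^ α) (hL : PartLower) : 4 ≤ α := by
  by_contra hc
  push Not at hc
  -- choose `m` and `ε`
  set d := 4 - α with hd
  have hd0 : 0 < d := by linarith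
  obtain ⟨m, hm⟩ := exists_nat_gt (8 / d)
  have hm0 : (0 : ℝ) < m := lt_of_le_of_lt (by positivity) hm
  have hm1 : 1 ≤ m := by
    rcases Nat.eq_zero_or_pos m with h0 | h0
    · rw [h0] at hm0; norm_num at hm0
    · exact h0
  have hm2 : 1 / ((m : ℝ) + 1) ≤ d / 8 := by
    rw [div_le_iff₀ (by positivity)]
    have : 8 < d * m := by
      rw [div_lt_iff₀ hd0] at hm
      linarith
    nlinarith
  have he0 : 0 < min (d / 200) (1 / 200) := by positivity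
  have he1 : min (d / 200) (1 / 200) < (1 : ℝ) / 100 :=
    lt_of_le_of_lt (min_le_right _ _) (by norm_num)
  have h1 := exponent_le hα h hL m hm1 _ he0 he1
  have h2 : min (d / 200) (1 / 200) ≤ d / 200 := min_le_left _ _
  have h3 : α = 4 - d := by rw [hd]; ring
  nlinarith

/-- the main theorem from its two halves -/
theorem alphaTot_eq_four (hU : PartUpper) (hL : PartLower) : alphaTot = 4 := by
  obtain ⟨C, hC⟩ := hU
  have hmem : (4 : ℝ) ∈ {α : ℝ | 0 ≤ α ∧ ∃ C : ℝ, ∀ n : ℕ, 1 ≤ n →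
      ∀ f : (Fin n → Bool) → Bool, (RQ f : ℝ) ≤ C * (1 + (QQ f : ℝ)) ^ α} := by
    refine ⟨by norm_num, C, ?_⟩
    intro n hn f
    have : Nonempty (Fin n) := ⟨⟨0, hn⟩⟩
    obtain ⟨T, hT, hTC⟩ := hC (Fin n) f
    have h1 : RQ f ≤ T := Nat.sInf_le hT
    have h2 : (RQ f : ℝ) ≤ (C : ℝ) * ((QQ f : ℝ) + 1) ^ 4 := by exact_mod_cast h1.trans hTC
    have h3 : (1 + (QQ f : ℝ)) ^ (4 : ℝ) = ((QQ f : ℝ) + 1) ^ 4 := by
      rw [add_comm]
      exact_mod_cast Real.rpow_natCast ((QQ f : ℝ) + 1) 4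
    rw [h3]
    exact h2
  apply le_antisymm
  · apply csInf_le ⟨0, ?_⟩ hmem
    rintro α ⟨hα, -⟩
    exact hα
  · apply le_csInf ⟨4, hmem⟩
    rintro α ⟨hα, C', hC'⟩
    exact four_le hα hC' hL

end P362
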