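import Vale.Agent.Lib.P362.FInterface

/-! P362, part P: transport of the complexity measures along an equivalence of the variables. -/

namespace P362

namespace DT

/-- renaming of the variables -/
def mapV {V V' R : Type} (e : V → V') : DT V R → DT V' R
  | leaf r => leaf r
  | node v t0 t1 => node (e v) (t0.mapV e) (t1.mapV e)

theorem depth_mapV {V V' R : Type} (e : V → V') (t : DT V R) : (t.mapV e).depth = t.depth := by
  induction t with
  | leaf r => rfl
  | node v t0 t1 h0 h1 => simp [mapV, depth, h0, h1]

theorem eval_mapV {V V' R : Type} (e : V → V') (t : DT V R) (x : V' → Bool) :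
    (t.mapV e).eval x = t.eval (x ∘ e) := by
  induction t with
  | leaf r => rfl
  | node v t0 t1 h0 h1 => simp [mapV, eval, h0, h1]

/-- the full decision tree querying all the variables of a list -/
def full {V R : Type} [DecidableEq V] (f : (V → Bool) → R) : List V → (V → Bool) → DT V R
  | [], a => leaf (f a)
  | v :: L, a => node v (full f L (Function.update a v false)) (full f L (Function.update a v true))

theorem depth_full {V R : Type} [DecidableEq V] (f : (V → Bool) → R) (L : List V) :
    ∀ a, (full f L a).depth = L.length := by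
  induction L with
  | nil => intro a; rfl
  | cons v L ih => intro a; simp [full, depth, ih]

theorem eval_full {V R : Type} [DecidableEq V] (f : (V → Bool) → R) (x : V → Bool) (L : List V) :
    ∀ a, (∀ v, v ∉ L → a v = x v) → (full f L a).eval x = f x := by
  induction L with
  | nil =>
    intro a ha
    have : a = x := funext fun v => ha v (by simp)
    simp [full, eval, this]
  | cons v L ih =>
    intro a ha
    have key : (full f L (Function.update a v (x v))).eval x = f x := by
      apply ih
      intro w hw
      by_cases hwv : w = v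
      · subst hwv; simp
      · rw [Function.update_of_ne hwv]
        exact ha w (by simp [hwv, hw])
    rw [full, eval]
    by_cases hx : x v = true
    · rw [if_pos hx, ← hx]
      exact key
    · rw [if_neg hx]
      have hx' : x v = false := by simpa using hx
      rw [← hx']
      exact key

end DT

theorem randComputes_reindex {V V' : Type} (e : V ≃ V') {T : ℕ} {f : (V → Bool) → Bool}
    (h : RandComputes T f) : RandComputes T (fun x : V' → Bool => f (x ∘ e)) := by
  obtain ⟨P, hP, hx⟩ := h
  refine ⟨P.map (DT.mapV e), ?_, ?_⟩
  · intro t ht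
    rw [PMF.support_map] at ht
    obtain ⟨s, hs, rfl⟩ := ht
    rw [DT.depth_mapV]
    exact hP s hs
  · intro x
    rw [PMF.toOuterMeasure_map_apply]
    have : (DT.mapV e ⁻¹' {t : DT V' Bool | t.eval x = f (x ∘ e)}) =
        {t : DT V Bool | t.eval (x ∘ e) = f (x ∘ e)} := by
      ext t
      simp [DT.eval_mapV]
    rw [this]
    exact hx _

/-- the algorithm with renamed variables -/
noncomputable def QAlg.reindex {V V' : Type} [Fintype V] [DecidableEq V] [Fintype V']
    [DecidableEq V'] (e : V ≃ V') {R : Type} {T : ℕ} (A : QAlg V R T) : QAlg V' R T where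
  W := A.W
  fW := A.fW
  dW := A.dW
  init := fun p => A.init (e.symm p.1, p.2)
  init_norm := by
    rw [← A.init_norm]
    exact Fintype.sum_equiv (Equiv.prodCongr e.symm (Equiv.refl _)) _ _ (fun p => rfl)
  U := fun t => (A.U t).submatrix (Equiv.prodCongr e.symm (Equiv.refl _))
    (Equiv.prodCongr e.symm (Equiv.refl _))
  unitary := by
    intro t
    have h := A.unitary t
    rw [Matrix.mem_unitaryGroup_iff] at h ⊢
    rw [Matrix.star_eq_conjTranspose] at h ⊢
    rw [Matrix.conjTranspose_submatrix, Matrix.submatrix_mul_equiv, h, Matrix.submatrix_one_equiv]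
  out := fun p => A.out (e.symm p.1, p.2)

theorem QAlg.state_reindex {V V' : Type} [Fintype V] [DecidableEq V] [Fintype V']
    [DecidableEq V'] (e : V ≃ V') {R : Type} {T : ℕ} (A : QAlg V R T) (x : V' → Bool) (t : ℕ) :
    (A.reindex e).state x t = fun p => A.state (x ∘ e) t (e.symm p.1, p.2) := by
  induction t with
  | zero =>
    funext p
    exact Fintype.sum_equiv (Equiv.prodCongr e.symm (Equiv.refl _)) _ _ (fun q => rfl)
  | succ t ih =>
    funext p
    have h1 : oracle x ((A.reindex e).state x t) =
        fun p => oracle (x ∘ e) (A.state (x ∘ e) t) (e.symm p.1, p.2) := by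
      rw [ih]
      funext p
      have hx : (x ∘ e) (e.symm p.1) = x p.1 := by simp
      change A.state (x ∘ e) t (e.symm p.1, xor p.2.1 (x p.1), p.2.2) =
        A.state (x ∘ e) t (e.symm p.1, xor p.2.1 ((x ∘ e) (e.symm p.1)), p.2.2)
      rw [hx]
    have h2 : (A.reindex e).state x (t + 1) p =
        ∑ q, (A.U (Fin.ofNat (T + 1) (t + 1))) (e.symm p.1, p.2) (e.symm q.1, q.2) *
          oracle x ((A.reindex e).state x t) q := rfl
    rw [h2, h1]
    exact Fintype.sum_equiv (Equiv.prodCongr e.symm (Equiv.refl _)) _ _ (fun q => rfl)

theorem QAlg.prob_reindex {V V' : Type} [Fintype V] [DecidableEq V] [Fintype V']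
    [DecidableEq V'] (e : V ≃ V') {R : Type} [DecidableEq R] {T : ℕ} (A : QAlg V R T)
    (x : V' → Bool) (r : R) : (A.reindex e).prob x r = A.prob (x ∘ e) r := by
  unfold QAlg.prob
  rw [QAlg.state_reindex]
  exact Fintype.sum_equiv (Equiv.prodCongr e.symm (Equiv.refl _)) _ _ (fun q => rfl)

theorem quantComputes_reindex {V V' : Type} [Fintype V] [DecidableEq V] [Fintype V']
    [DecidableEq V'] (e : V ≃ V') {T : ℕ} {f : (V → Bool) → Bool}
    (h : QuantComputes T f) : QuantComputes T (fun x : V' → Bool => f (x ∘ e)) := by
  obtain ⟨A, hA⟩ := h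
  refine ⟨A.reindex e, fun x => ?_⟩
  rw [QAlg.prob_reindex]
  exact hA _

theorem reindex : Reindex := by
  intro V _ _ _ f
  have e : V ≃ Fin (Fintype.card V) := Fintype.equivFin V
  refine ⟨fun x => f (x ∘ e), fun T => ⟨⟨fun h => ?_, fun h => randComputes_reindex e h⟩,
    ⟨fun h => ?_, fun h => quantComputes_reindex e h⟩⟩⟩
  · have h' := randComputes_reindex e.symm h
    have : (fun x : V → Bool => (fun x : Fin (Fintype.card V) → Bool => f (x ∘ e)) (x ∘ e.symm)) =
        f := by
      funext x
      simp [Function.comp_assoc]
    rwa [this] at h'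
  · have h' := quantComputes_reindex e.symm h
    have : (fun x : V → Bool => (fun x : Fin (Fintype.card V) → Bool => f (x ∘ e)) (x ∘ e.symm)) =
        f := by
      funext x
      simp [Function.comp_assoc]
    rwa [this] at h'

/-- every function is computed by the full decision tree -/
theorem randComputes_card {V : Type} [Fintype V] [DecidableEq V] (f : (V → Bool) → Bool) :
    RandComputes (Fintype.card V) f := by
  classical
  refine ⟨PMF.pure (DT.full f Finset.univ.toList (fun _ => false)), ?_, ?_⟩
  · intro t ht
    rw [PMF.support_pure, Set.mem_singleton_iff] at ht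
    rw [ht, DT.depth_full, Finset.length_toList, Finset.card_univ]
  · intro x
    have h : DT.full f Finset.univ.toList (fun _ => false) ∈
        {t : DT V Bool | t.eval x = f x} := by
      apply DT.eval_full
      intro v hv
      simp at hv
    rw [PMF.toOuterMeasure_pure_apply, if_pos h]
    exact ENNReal.div_le_of_le_mul (by norm_num)

theorem randComputes_RQ {V : Type} [Fintype V] [DecidableEq V] (f : (V → Bool) → Bool) :
    RandComputes (RQ f) f :=
  Nat.sInf_mem (s := {T | RandComputes T f}) ⟨_, randComputes_card f⟩

theorem quantComputes_some (h : PartQTree) {V : Type} [Fintype V] [DecidableEq V] [Nonempty V]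
    (f : (V → Bool) → Bool) : ∃ T ≤ Fintype.card V, QuantComputes T f := by
  have h2 := h.2 V Bool (DT.full f Finset.univ.toList (fun _ => false))
  obtain ⟨T, hT, A, hA⟩ := h2
  rw [DT.depth_full, Finset.length_toList, Finset.card_univ] at hT
  refine ⟨T, hT, A, fun x => ?_⟩
  rw [hA x (f x)]
  dsimp only
  rw [if_pos]
  · norm_num
  · apply DT.eval_full
    intro v hv
    simp at hv

theorem quantComputes_QQ (h : PartQTree) {V : Type} [Fintype V] [DecidableEq V] [Nonempty V]
    (f : (V → Bool) → Bool) : QuantComputes (QQ f) f := by
  obtain ⟨T, -, hT⟩ := quantComputes_some h f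
  exact Nat.sInf_mem (s := {T | QuantComputes T f}) ⟨T, hT⟩

end P362
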