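import Vale.Agent.Lib.P362.P.Final
import Vale.Agent.Lib.P362.P.Asym
import Vale.Agent.Lib.P362.P.Reindex
import Vale.Agent.Lib.P362.Upper.Final

/-! P362, part P: the main theorem from `PartLaw`, `FQuant`, `FClass`, `PartQTree`. -/

namespace P362

theorem partTriv : PartTriv := fun _ _ _ f => ⟨_, randComputes_card f⟩

theorem partUpper (hT : PartQTree) : PartUpper := by
  refine ⟨40960000, fun V _ _ _ f => ⟨40960000 * QQ f ^ 4, ?_, ?_⟩⟩
  · exact randComputes_of_quant (quantComputes_QQ hT f)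
  · gcongr
    exact Nat.le_succ _

/-- the main theorem -/
theorem main (hLaw : PartLaw) (hQ : FQuant) (hC : FClass) (hT : PartQTree) :
    alphaTot = 4 ∧
    (∃ C : ℝ, ∀ n : ℕ, 1 ≤ n → ∀ f : (Fin n → Bool) → Bool,
      (RQ f : ℝ) ≤ C * (1 + (QQ f : ℝ)) ^ (4 : ℕ)) ∧
    (∀ α : ℝ, 0 ≤ α → α < 4 → ∀ C : ℝ, ∃ n : ℕ, 1 ≤ n ∧ ∃ f : (Fin n → Bool) → Bool,
      C * (1 + (QQ f : ℝ)) ^ α < RQ f) ∧
    (∀ n : ℕ, 1 ≤ n → ∀ f : (Fin n → Bool) → Bool,
      RandComputes (RQ f) f ∧ QuantComputes (QQ f) f) := by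
  have hU := partUpper hT
  have hL := partLower hLaw hQ hC reindex partTriv
  refine ⟨alphaTot_eq_four hU hL, ?_, ?_, ?_⟩
  · obtain ⟨C, hC⟩ := hU
    refine ⟨C, fun n hn f => ?_⟩
    have : Nonempty (Fin n) := ⟨⟨0, hn⟩⟩
    obtain ⟨T, hT, hTC⟩ := hC (Fin n) f
    have h1 : RQ f ≤ T := Nat.sInf_le hT
    rw [add_comm (1 : ℝ)]
    exact_mod_cast h1.trans hTC
  · intro α hα hα4 C
    by_contra hc
    push Not at hc
    have := four_le hα hc hL
    linarith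
  · intro n hn f
    have : Nonempty (Fin n) := ⟨⟨0, hn⟩⟩
    exact ⟨randComputes_RQ f, quantComputes_QQ hT f⟩

end P362
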