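import Vale.Agent.Lib.P362.P.Defs

/-! P362, part P: polynomials in `l` against powers of `N = 2^l`. -/

namespace P362

open Filter Topology

theorem poly_le (c : ℝ) (d : ℕ) {s : ℝ} (hs : 0 < s) :
    ∃ l0 : ℕ, ∀ l ≥ l0, c * ((l : ℝ) + 1) ^ d ≤ ((2 : ℝ) ^ l) ^ s := by
  have hr : (1 : ℝ) < (2 : ℝ) ^ s := Real.one_lt_rpow (by norm_num) hs
  have h1 := tendsto_pow_const_div_const_pow_of_one_lt d hr
  have hc : 0 < (|c| + 1) * 2 ^ d := by positivity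
  have h2 : ∀ᶠ n : ℕ in atTop, (n : ℝ) ^ d / ((2 : ℝ) ^ s) ^ n < 1 / ((|c| + 1) * 2 ^ d) :=
    h1.eventually_lt_const (by positivity)
  obtain ⟨l0, hl0⟩ := eventually_atTop.mp h2
  refine ⟨max l0 1, fun l hl => ?_⟩
  have h3 := hl0 l (le_trans (le_max_left _ _) hl)
  have hl1 : (1 : ℝ) ≤ l := by exact_mod_cast le_trans (le_max_right l0 1) hl
  have h4 : ((2 : ℝ) ^ l) ^ s = ((2 : ℝ) ^ s) ^ l := by
    rw [← Real.rpow_natCast, ← Real.rpow_mul (by norm_num), ← Real.rpow_natCast,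
      ← Real.rpow_mul (by norm_num), mul_comm]
  have h5 : 0 < ((2 : ℝ) ^ s) ^ l := by positivity
  rw [div_lt_div_iff₀ h5 hc] at h3
  rw [h4]
  have h6 : ((l : ℝ) + 1) ^ d ≤ (2 * l) ^ d := pow_le_pow_left₀ (by positivity) (by linarith) d
  calc c * ((l : ℝ) + 1) ^ d ≤ |c| * ((l : ℝ) + 1) ^ d :=
        mul_le_mul_of_nonneg_right (le_abs_self c) (by positivity)
    _ ≤ (|c| + 1) * (2 * l) ^ d := by
        apply mul_le_mul (by linarith) h6 (by positivity) (by positivity)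
    _ = (l : ℝ) ^ d * ((|c| + 1) * 2 ^ d) := by rw [mul_pow]; ring
    _ ≤ ((2 : ℝ) ^ s) ^ l := by linarith

end P362
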